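import Vale.Agent.P080.SemiCvx.Main

/-!
P080: interior `C^{1,α}` estimates for semiconvex or semiconcave infinity-harmonic functions.
-/

open InnerProductSpace Metric

namespace Vale.Agent.Results.P080.SemiconvexGradient

open Vale.Agent.P080.SemiCvx

theorem result : ∀ (d : ℕ) (Ω : Set (EuclideanSpace ℝ (Fin d))) (u : EuclideanSpace ℝ (Fin d) → ℝ),
    IsInfHarmonic Ω u → ∀ (x₀ : EuclideanSpace ℝ (Fin d)) (R Λ M : ℝ), ball x₀ R ⊆ Ω → 0 < R →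
    0 ≤ Λ → (∀ x ∈ ball x₀ R, ∀ x' ∈ ball x₀ R, |u x - u x'| ≤ M) →
    (ConvexOn ℝ (ball x₀ R) (fun x => u x + Λ / 2 * ‖x - x₀‖ ^ 2) ∨
      ConcaveOn ℝ (ball x₀ R) (fun x => u x - Λ / 2 * ‖x - x₀‖ ^ 2)) →
    (∀ y ∈ ball x₀ (R / 2), DifferentiableAt ℝ u y) ∧
    ∀ y₁ ∈ ball x₀ (R / 2), ∀ y₂ ∈ ball x₀ (R / 2),
      ‖gradient u y₂ - gradient u y₁‖ ≤
          1000 * (2 * M / R + Λ * R / 4) * (‖y₂ - y₁‖ / R) ^ ((1 : ℝ) / 5) ∧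
      (Λ = 0 → ‖gradient u y₂ - gradient u y₁‖ ≤ 1000 * (2 * M / R) * √(‖y₂ - y₁‖ / R)) :=
  fun _ _ _ h _ _ _ _ hsub hR hΛ hM hs => semi_gradient h hsub hR hΛ hM hs

end Vale.Agent.Results.P080.SemiconvexGradient
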